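import Mathlib

/-!
# P141, line (B): projection on a closed convex set given by a compact family of tests

`E` a finite dimensional real inner product space, `S` a compact set of (normalised) tests,
`Kset S c = {V | ∀ a ∈ S, ⟪V, a⟫ ≤ c a}`.

* `exists_proj`: the projection on a nonempty closed convex set, its variational inequality, the
  Pythagoras inequality;
* `kkt`: for `c > 0` continuous, the residual `F - V` is a nonnegative multiple of an element of the
  convex hull of the normalised ACTIVE tests;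
* `fine_le`: the `(1 + ε)` lemma of weak duality (two systems of weights);
* the one step inequality of the submartingale `dist²` is `IsProj.pyth`.
-/

namespace Vale.Agent.P141.H37

open Set RealInnerProductSpace

variable {E : Type*} [NormedAddCommGroup E] [InnerProductSpace ℝ E]

/-- `V` is the projection of `F` on `K`: the variational inequality. -/
structure IsProj (K : Set E) (F V : E) : Prop where
  mem : V ∈ K
  var : ∀ W ∈ K, ⟪F - V, W - V⟫ ≤ 0

namespace IsProj

variable {K : Set E} {F V : E}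

theorem pyth (h : IsProj K F V) {W : E} (hW : W ∈ K) :
    ‖F - V‖ ^ 2 + ‖V - W‖ ^ 2 ≤ ‖F - W‖ ^ 2 := by
  have h1 : F - W = (F - V) - (W - V) := by abel
  have h2 : ‖F - W‖ ^ 2 = ‖F - V‖ ^ 2 - 2 * ⟪F - V, W - V⟫ + ‖W - V‖ ^ 2 := by
    rw [h1, norm_sub_sq_real]
  have h3 := h.var W hW
  have h4 : ‖V - W‖ = ‖W - V‖ := norm_sub_rev _ _
  rw [h2, h4]
  linarith

theorem le_dist (h : IsProj K F V) {W : E} (hW : W ∈ K) : ‖F - V‖ ^ 2 ≤ ‖F - W‖ ^ 2 := by
  have := h.pyth hW
  nlinarith [sq_nonneg ‖V - W‖]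

theorem unique (h : IsProj K F V) {V' : E} (h' : IsProj K F V') : V = V' := by
  have h1 := h.pyth h'.mem
  have h2 := h'.pyth h.mem
  have h3 : ‖V - V'‖ ^ 2 ≤ 0 := by
    have e : ‖V' - V‖ = ‖V - V'‖ := norm_sub_rev _ _
    rw [e] at h2
    nlinarith
  have h4 : ‖V - V'‖ = 0 := by
    have := sq_nonneg ‖V - V'‖
    exact pow_eq_zero_iff (two_ne_zero) |>.mp (le_antisymm h3 this)
  exact sub_eq_zero.mp (norm_eq_zero.mp h4)

end IsProj

theorem exists_proj [CompleteSpace E] {K : Set E} (hne : K.Nonempty) (hc : IsClosed K)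
    (hK : Convex ℝ K) (F : E) : ∃ V, IsProj K F V := by
  obtain ⟨V, hV, h⟩ := exists_norm_eq_iInf_of_complete_convex hne hc.isComplete hK F
  exact ⟨V, hV, (norm_eq_iInf_iff_real_inner_le_zero hK hV).mp h⟩

/-- The set cut out by the tests `a ∈ S` with bounds `c a`. -/
def Kset (S : Set E) (c : E → ℝ) : Set E := {V | ∀ a ∈ S, ⟪V, a⟫ ≤ c a}

theorem Kset_closed (S : Set E) (c : E → ℝ) : IsClosed (Kset S c) := by
  have : Kset S c = ⋂ a ∈ S, {V | ⟪V, a⟫ ≤ c a} := by
    ext V; simp [Kset]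
  rw [this]
  refine isClosed_biInter fun a _ => ?_
  exact isClosed_le (by fun_prop) continuous_const

theorem Kset_convex (S : Set E) (c : E → ℝ) : Convex ℝ (Kset S c) := by
  intro x hx y hy p q hp hq hpq a ha
  rw [inner_add_left, real_inner_smul_left, real_inner_smul_left]
  have h1 := hx a ha
  have h2 := hy a ha
  calc p * ⟪x, a⟫ + q * ⟪y, a⟫ ≤ p * c a + q * c a :=
        add_le_add (mul_le_mul_of_nonneg_left h1 hp) (mul_le_mul_of_nonneg_left h2 hq)
    _ = c a := by rw [← add_mul, hpq, one_mul]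

theorem zero_mem_Kset {S : Set E} {c : E → ℝ} (h : ∀ a ∈ S, 0 ≤ c a) : (0 : E) ∈ Kset S c := by
  intro a ha
  rw [inner_zero_left]
  exact h a ha

theorem Kset_anti {S S' : Set E} {c c' : E → ℝ} (h : S' ⊆ S) (hc : ∀ a ∈ S', c a ≤ c' a) :
    Kset S c ⊆ Kset S' c' := fun V hV a ha => (hV a (h ha)).trans (hc a ha)

/-- The projection on the set of the tests. -/
theorem exists_projK [CompleteSpace E] {S : Set E} {c : E → ℝ} (h : ∀ a ∈ S, 0 ≤ c a) (F : E) :
    ∃ V, IsProj (Kset S c) F V :=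
  exists_proj ⟨0, zero_mem_Kset h⟩ (Kset_closed S c) (Kset_convex S c) F

/-- The active tests. -/
def Act (S : Set E) (c : E → ℝ) (V : E) : Set E := {a | a ∈ S ∧ ⟪V, a⟫ = c a}

section cone

variable [FiniteDimensional ℝ E]

/-- The cone over a compact convex set which avoids `0` is closed. -/
theorem cone_closed {C : Set E} (hC : IsCompact C) (h0 : (0 : E) ∉ C) :
    IsClosed {x : E | ∃ r : ℝ, 0 ≤ r ∧ ∃ z ∈ C, x = r • z} := by
  rcases C.eq_empty_or_nonempty with rfl | hne
  · simp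
  -- a lower bound of the norm on `C`
  obtain ⟨z0, hz0, hmin⟩ := hC.exists_isMinOn hne continuous_norm.continuousOn
  have hpos : 0 < ‖z0‖ := norm_pos_iff.mpr fun h => h0 (h ▸ hz0)
  have hlow : ∀ z ∈ C, ‖z0‖ ≤ ‖z‖ := fun z hz => hmin hz
  refine isClosed_of_closure_subset fun x hx => ?_
  obtain ⟨u, hu, hlim⟩ := mem_closure_iff_seq_limit.mp hx
  choose r hr z hz e using hu
  obtain ⟨M, hM⟩ : ∃ M : ℝ, ∀ n, ‖u n‖ ≤ M := by
    obtain ⟨M, hM⟩ := (Metric.isBounded_range_of_tendsto u hlim).exists_norm_le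
    exact ⟨M, fun n => hM _ ⟨n, rfl⟩⟩
  have hrM : ∀ n, r n ∈ Icc (0 : ℝ) (M / ‖z0‖) := by
    intro n
    refine ⟨hr n, ?_⟩
    rw [le_div_iff₀ hpos]
    calc r n * ‖z0‖ ≤ r n * ‖z n‖ := mul_le_mul_of_nonneg_left (hlow _ (hz n)) (hr n)
      _ = ‖u n‖ := by rw [e n, norm_smul, Real.norm_of_nonneg (hr n)]
      _ ≤ M := hM n
  have hcomp : IsCompact (Icc (0 : ℝ) (M / ‖z0‖) ×ˢ C) := isCompact_Icc.prod hC
  obtain ⟨p, hp, φ, hφ, hlim'⟩ := hcomp.tendsto_subseq (x := fun n => (r n, z n))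
    fun n => ⟨hrM n, hz n⟩
  have h1 : Filter.Tendsto (fun n => r (φ n) • z (φ n)) Filter.atTop (nhds (p.1 • p.2)) :=
    ((continuous_fst.tendsto p).comp hlim').smul ((continuous_snd.tendsto p).comp hlim')
  have h2 : Filter.Tendsto (fun n => r (φ n) • z (φ n)) Filter.atTop (nhds x) := by
    have := hlim.comp hφ.tendsto_atTop
    refine this.congr fun n => ?_
    exact e (φ n)
  exact ⟨p.1, hp.1.1, p.2, hp.2, tendsto_nhds_unique h2 h1⟩

theorem cone_convex {C : Set E} (hC : Convex ℝ C) :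
    Convex ℝ {x : E | ∃ r : ℝ, 0 ≤ r ∧ ∃ z ∈ C, x = r • z} := by
  rintro x ⟨r, hr, z, hz, rfl⟩ y ⟨r', hr', z', hz', rfl⟩ p q hp hq _
  have h1 : 0 ≤ p * r := mul_nonneg hp hr
  have h2 : 0 ≤ q * r' := mul_nonneg hq hr'
  rcases (add_nonneg h1 h2).eq_or_lt with h | h
  · have h3 : p * r = 0 := by linarith
    have h4 : q * r' = 0 := by linarith
    refine ⟨0, le_rfl, z, hz, ?_⟩
    rw [smul_smul, smul_smul, h3, h4]
    simp
  · refine ⟨p * r + q * r', h.le, _, hC hz hz' (div_nonneg h1 h.le) (div_nonneg h2 h.le) ?_, ?_⟩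
    · rw [← add_div, div_self h.ne']
    · rw [smul_add, smul_smul, smul_smul, smul_smul, smul_smul, mul_div_cancel₀ _ h.ne',
        mul_div_cancel₀ _ h.ne']

end cone

section caratheodory

variable [FiniteDimensional ℝ E]

/-- The convex hull of a compact set of a finite dimensional space is compact. -/
theorem compact_convexHull {S : Set E} (hS : IsCompact S) : IsCompact (convexHull ℝ S) := by
  rcases S.eq_empty_or_nonempty with rfl | ⟨x0, hx0⟩
  · simp
  set d := Module.finrank ℝ E + 1 with hd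
  have hD : IsCompact (stdSimplex ℝ (Fin d) ×ˢ (Set.univ.pi fun _ : Fin d => S)) :=
    (isCompact_stdSimplex ℝ (Fin d)).prod (isCompact_univ_pi fun _ => hS)
  have hf : Continuous fun p : (Fin d → ℝ) × (Fin d → E) => ∑ i, p.1 i • p.2 i := by fun_prop
  have key : convexHull ℝ S = (fun p : (Fin d → ℝ) × (Fin d → E) => ∑ i, p.1 i • p.2 i) ''
      (stdSimplex ℝ (Fin d) ×ˢ (Set.univ.pi fun _ : Fin d => S)) := by
    refine Set.Subset.antisymm (fun z hz => ?_) ?_
    · rw [convexHull_eq_union] at hz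
      simp only [mem_iUnion] at hz
      obtain ⟨t, hts, hai, hz⟩ := hz
      rw [Finset.mem_convexHull'] at hz
      obtain ⟨w, hw0, hw1, hwz⟩ := hz
      have hcard : Fintype.card t ≤ Fintype.card (Fin d) := by
        rw [Fintype.card_fin, hd]
        exact hai.card_le_finrank_succ.trans
          (Nat.succ_le_succ (Submodule.finrank_le _))
      obtain ⟨g⟩ := Function.Embedding.nonempty_of_card_le hcard
      refine ⟨(Function.extend g (fun y : t => w y) 0, Function.extend g (fun y : t => (y : E))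
        fun _ => x0), ⟨⟨fun i => ?_, ?_⟩, fun i _ => ?_⟩, ?_⟩
      · show 0 ≤ Function.extend g (fun y : t => w y) 0 i
        by_cases h : ∃ y, g y = i
        · obtain ⟨y, rfl⟩ := h
          rw [g.injective.extend_apply]
          exact hw0 y y.2
        · rw [Function.extend_apply' _ _ _ h]
          exact le_rfl
      · show ∑ i, Function.extend g (fun y : t => w y) 0 i = 1
        rw [← hw1, ← Finset.sum_coe_sort t]
        refine (Fintype.sum_of_injective g g.injective _ _ (fun i hi => ?_) fun y => ?_).symm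
        · exact Function.extend_apply' _ _ _ fun h => hi h
        · rw [g.injective.extend_apply]
      · show Function.extend g (fun y : t => (y : E)) (fun _ => x0) i ∈ S
        by_cases h : ∃ y, g y = i
        · obtain ⟨y, rfl⟩ := h
          rw [g.injective.extend_apply]
          exact hts y.2
        · rw [Function.extend_apply' _ _ _ h]
          exact hx0
      · show ∑ i, Function.extend g (fun y : t => w y) 0 i •
          Function.extend g (fun y : t => (y : E)) (fun _ => x0) i = z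
        rw [← hwz, ← Finset.sum_coe_sort t]
        refine (Fintype.sum_of_injective g g.injective _ _ (fun i hi => ?_) fun y => ?_).symm
        · rw [Function.extend_apply' _ _ _ fun h => hi h]
          exact zero_smul _ _
        · rw [g.injective.extend_apply, g.injective.extend_apply]
    · rintro z ⟨p, ⟨hp1, hp2⟩, rfl⟩
      exact (convex_convexHull ℝ S).sum_mem (fun i _ => hp1.1 i) hp1.2
        fun i _ => subset_convexHull ℝ S (hp2 i (mem_univ i))
  rw [key]
  exact hD.image hf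

end caratheodory

section kkt

variable [FiniteDimensional ℝ E] {S : Set E} {c : E → ℝ} {F V : E}

/-- **Feasible directions**: a direction which decreases all active tests is feasible. -/
theorem feasible (hS : IsCompact S) (hc : ContinuousOn c S) (hV : V ∈ Kset S c) {y : E}
    (hy : ∀ a ∈ Act S c V, ⟪y, a⟫ < 0) : ∃ ε : ℝ, 0 < ε ∧ V + ε • y ∈ Kset S c := by
  by_contra hcon
  push_neg at hcon
  have h1 : ∀ n : ℕ, ∃ a ∈ S, c a < ⟪V + ((1 : ℝ) / (n + 1)) • y, a⟫ := by
    intro n
    have := hcon (1 / ((n : ℝ) + 1)) (by positivity)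
    simp only [Kset, mem_setOf_eq, not_forall, not_le] at this
    obtain ⟨a, ha, h⟩ := this
    exact ⟨a, ha, h⟩
  choose a ha h using h1
  obtain ⟨b, hb, φ, hφ, hlim⟩ := hS.tendsto_subseq ha
  have h2 : ∀ n, 0 < ⟪y, a n⟫ := by
    intro n
    have h3 := h n
    rw [inner_add_left, real_inner_smul_left] at h3
    have h4 := hV (a n) (ha n)
    have h5 : 0 < (1 : ℝ) / (n + 1) * ⟪y, a n⟫ := by linarith
    exact (pos_iff_pos_of_mul_pos h5).mp (by positivity)
  have l1 : Filter.Tendsto (fun n => ⟪y, a (φ n)⟫) Filter.atTop (nhds ⟪y, b⟫) :=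
    ((continuous_const.inner continuous_id).tendsto b).comp hlim
  have h6 : 0 ≤ ⟪y, b⟫ := ge_of_tendsto' l1 fun n => (h2 (φ n)).le
  have hinv : Filter.Tendsto (fun n : ℕ => (1 : ℝ) / ((φ n : ℕ) + 1)) Filter.atTop (nhds 0) :=
    tendsto_one_div_add_atTop_nhds_zero_nat.comp hφ.tendsto_atTop
  have l2 : Filter.Tendsto (fun n => ⟪V + ((1 : ℝ) / ((φ n : ℕ) + 1)) • y, a (φ n)⟫)
      Filter.atTop (nhds ⟪V + (0 : ℝ) • y, b⟫) :=
    (tendsto_const_nhds.add (hinv.smul tendsto_const_nhds)).inner hlim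
  have l3 : Filter.Tendsto (fun n => c (a (φ n))) Filter.atTop (nhds (c b)) := by
    have hw : Filter.Tendsto (fun n => a (φ n)) Filter.atTop (nhdsWithin b S) :=
      tendsto_nhdsWithin_iff.mpr ⟨hlim, Filter.Eventually.of_forall fun n => ha (φ n)⟩
    exact (hc b hb).tendsto.comp hw
  have h7 : c b ≤ ⟪V + (0 : ℝ) • y, b⟫ := le_of_tendsto_of_tendsto' l3 l2 fun n => (h (φ n)).le
  rw [zero_smul, add_zero] at h7
  have h8 : b ∈ Act S c V := ⟨hb, le_antisymm (hV b hb) h7⟩
  exact absurd (hy b h8) (not_lt.mpr h6)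

/-- **KKT**: the residual of the projection is a nonnegative combination of ACTIVE tests. -/
theorem kkt (hS : IsCompact S) (hc : ContinuousOn c S) (hpos : ∀ a ∈ S, 0 < c a)
    (h : IsProj (Kset S c) F V) : ∃ (ι : Type) (_ : Fintype ι) (m : ι → ℝ) (a : ι → E),
      (∀ i, 0 ≤ m i) ∧ (∀ i, a i ∈ Act S c V) ∧ F - V = ∑ i, m i • a i := by
  set B := F - V with hB
  have hvar : ∀ y : E, (∀ a ∈ Act S c V, ⟪y, a⟫ < 0) → ⟪B, y⟫ ≤ 0 := by
    intro y hy
    obtain ⟨ε, hε, hK⟩ := feasible hS hc h.mem hy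
    have h1 := h.var _ hK
    rw [add_sub_cancel_left, real_inner_smul_right] at h1
    exact nonpos_of_mul_nonpos_right h1 hε
  rcases (Act S c V).eq_empty_or_nonempty with hA | ⟨a0, ha0⟩
  · refine ⟨PEmpty, inferInstance, PEmpty.elim, PEmpty.elim, fun i => i.elim, fun i => i.elim, ?_⟩
    have h1 := hvar B (by rw [hA]; simp)
    have h2 : B = 0 := by
      rw [real_inner_self_eq_norm_sq] at h1
      have h3 : ‖B‖ = 0 := by
        have := sq_nonneg ‖B‖
        exact (pow_eq_zero_iff two_ne_zero).mp (le_antisymm h1 this)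
      exact norm_eq_zero.mp h3
    rw [h2]; simp
  -- the normalised active tests
  set T : Set E := (fun a => (c a)⁻¹ • a) '' Act S c V with hT
  have hAc : IsCompact (Act S c V) := by
    have h1 : ContinuousOn (fun a => ⟪V, a⟫ - c a) S :=
      (continuous_const.inner continuous_id).continuousOn.sub hc
    have h2 : Act S c V = S ∩ (fun a => ⟪V, a⟫ - c a) ⁻¹' {0} := by
      ext a
      simp only [Act, mem_setOf_eq, mem_inter_iff, mem_preimage, mem_singleton_iff, sub_eq_zero]
    rw [h2]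
    exact hS.of_isClosed_subset
      (h1.preimage_isClosed_of_isClosed hS.isClosed isClosed_singleton) inter_subset_left
  have hTc : IsCompact T := by
    refine hAc.image_of_continuousOn ?_
    have h1 : ContinuousOn c (Act S c V) := hc.mono fun a ha => ha.1
    exact (h1.inv₀ fun a ha => (hpos a ha.1).ne').smul continuousOn_id
  have hCc : IsCompact (convexHull ℝ T) := compact_convexHull hTc
  have hone : ∀ z ∈ convexHull ℝ T, ⟪V, z⟫ = 1 := by
    have hconv : Convex ℝ {z : E | ⟪V, z⟫ = 1} := by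
      intro x hx y hy p q _ _ hpq
      simp only [mem_setOf_eq] at hx hy ⊢
      rw [inner_add_right, real_inner_smul_right, real_inner_smul_right, hx, hy, mul_one, mul_one,
        hpq]
    refine fun z hz => convexHull_min ?_ hconv hz
    rintro _ ⟨a, ha, rfl⟩
    simp only [mem_setOf_eq]
    rw [real_inner_smul_right, ha.2, inv_mul_cancel₀ (hpos a ha.1).ne']
  have h0 : (0 : E) ∉ convexHull ℝ T := by
    intro hz
    have := hone 0 hz
    rw [inner_zero_right] at this
    exact zero_ne_one this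
  set C : Set E := {x : E | ∃ r : ℝ, 0 ≤ r ∧ ∃ z ∈ convexHull ℝ T, x = r • z} with hC
  have hCcl : IsClosed C := cone_closed hCc h0
  have hCcv : Convex ℝ C := cone_convex (convex_convexHull ℝ T)
  have hmem : B ∈ C := by
    by_contra hnot
    obtain ⟨f, u, hf, hu⟩ := geometric_hahn_banach_closed_point hCcv hCcl hnot
    set y : E := (InnerProductSpace.toDual ℝ E).symm f with hy
    have hfy : ∀ x, f x = ⟪y, x⟫ := fun x => by
      rw [hy, InnerProductSpace.toDual_symm_apply]
    have hu0 : 0 < u := by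
      have h1 : (0 : E) ∈ C := ⟨0, le_rfl, _, subset_convexHull ℝ T ⟨a0, ha0, rfl⟩, by simp⟩
      have := hf 0 h1
      rwa [map_zero] at this
    have hneg : ∀ z ∈ convexHull ℝ T, ⟪y, z⟫ ≤ 0 := by
      intro z hz
      by_contra hcon
      push_neg at hcon
      have h1 := hf ((u / ⟪y, z⟫) • z) ⟨_, (div_pos hu0 hcon).le, z, hz, rfl⟩
      rw [hfy, real_inner_smul_right, div_mul_cancel₀ _ hcon.ne'] at h1
      exact lt_irrefl _ h1
    have hBy : 0 < ⟪B, y⟫ := by
      rw [real_inner_comm]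
      rw [hfy] at hu
      exact hu0.trans hu
    set δ : ℝ := ⟪B, y⟫ / (2 * (|⟪B, V⟫| + 1)) with hδ
    have hδ0 : 0 < δ := by positivity
    have h2 := hvar (y - δ • V) fun a ha => by
      rw [inner_sub_left, real_inner_smul_left, ha.2]
      have h3 := hneg _ (subset_convexHull ℝ T ⟨a, ha, rfl⟩)
      rw [real_inner_smul_right] at h3
      have h4 : ⟪y, a⟫ ≤ 0 := nonpos_of_mul_nonpos_right h3 (inv_pos.mpr (hpos a ha.1))
      have h5 : 0 < δ * c a := mul_pos hδ0 (hpos a ha.1)
      linarith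
    rw [inner_sub_right, real_inner_smul_right] at h2
    have h6 : δ * ⟪B, V⟫ ≤ ⟪B, y⟫ / 2 := by
      have h7 : δ * ⟪B, V⟫ ≤ δ * (|⟪B, V⟫| + 1) :=
        mul_le_mul_of_nonneg_left ((le_abs_self _).trans (by linarith)) hδ0.le
      have h8 : δ * (|⟪B, V⟫| + 1) = ⟪B, y⟫ / 2 := by
        rw [hδ]
        have : |⟪B, V⟫| + 1 ≠ 0 := by positivity
        field_simp
      linarith
    linarith
  obtain ⟨r, hr, z, hz, e⟩ := hmem
  obtain ⟨ι, hι, w, x, hw0, hw1, hx, hwx⟩ := mem_convexHull_iff_exists_fintype.mp hz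
  choose a ha hax using hx
  refine ⟨ι, hι, fun i => r * w i * (c (a i))⁻¹, a, fun i => ?_, ha, ?_⟩
  · exact mul_nonneg (mul_nonneg hr (hw0 i)) (inv_pos.mpr (hpos _ (ha i).1)).le
  · rw [e, ← hwx, Finset.smul_sum]
    refine Finset.sum_congr rfl fun i _ => ?_
    rw [← hax i, smul_smul, smul_smul]

end kkt

section duality

variable {ι : Type*} [Fintype ι] {S : Set E} {c c0 : E → ℝ} {F V W : E} {m : ι → ℝ} {a : ι → E}

/-- `⟪F - V, V⟫ = ∑ m c`. -/
theorem inner_res (ha : ∀ i, a i ∈ Act S c V) (e : F - V = ∑ i, m i • a i) :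
    ⟪F - V, V⟫ = ∑ i, m i * c (a i) := by
  rw [e, sum_inner]
  refine Finset.sum_congr rfl fun i _ => ?_
  rw [real_inner_smul_left, real_inner_comm, (ha i).2]

/-- **Weak duality with two systems of weights** (the `(1 + ε)` lemma). -/
theorem fine_le (hm : ∀ i, 0 ≤ m i) (ha : ∀ i, a i ∈ Act S c V) (e : F - V = ∑ i, m i • a i)
    (hW : ∀ i, ⟪W, a i⟫ ≤ c0 (a i)) :
    ‖F - V‖ ^ 2 + 2 * ∑ i, m i * (c (a i) - c0 (a i)) ≤ ‖F - W‖ ^ 2 := by
  have h1 : ⟪F - V, V⟫ = ∑ i, m i * c (a i) := inner_res ha e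
  have h2 : ⟪F - V, W⟫ ≤ ∑ i, m i * c0 (a i) := by
    rw [e, sum_inner]
    refine Finset.sum_le_sum fun i _ => ?_
    rw [real_inner_smul_left, real_inner_comm]
    exact mul_le_mul_of_nonneg_left (hW i) (hm i)
  have h3 : ‖F - W‖ ^ 2 = ‖F - V‖ ^ 2 + 2 * ⟪F - V, V - W⟫ + ‖V - W‖ ^ 2 := by
    have : F - W = (F - V) + (V - W) := by abel
    rw [this, norm_add_sq_real]
  rw [inner_sub_right] at h3
  have h4 : ∑ i, m i * (c (a i) - c0 (a i)) = ∑ i, m i * c (a i) - ∑ i, m i * c0 (a i) := by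
    rw [← Finset.sum_sub_distrib]
    exact Finset.sum_congr rfl fun i _ => by ring
  rw [h4, h3, h1]
  nlinarith [sq_nonneg ‖V - W‖]

/-- **Total weight of the payers**: `2 ∑ m c = ‖F‖² - ‖V‖² - ‖F - V‖²`. -/
theorem weight_eq (ha : ∀ i, a i ∈ Act S c V) (e : F - V = ∑ i, m i • a i) :
    2 * ∑ i, m i * c (a i) + ‖F - V‖ ^ 2 + ‖V‖ ^ 2 = ‖F‖ ^ 2 := by
  have h1 := inner_res ha e
  have h3 : ‖F‖ ^ 2 = ‖F - V‖ ^ 2 + 2 * ⟪F - V, V⟫ + ‖V‖ ^ 2 := by
    have : F = (F - V) + V := by abel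
    conv_lhs => rw [this, norm_add_sq_real]
  rw [h3, h1]
  ring

end duality

end Vale.Agent.P141.H37
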